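import Vale.Agent.P022.H783.Sv.Grp

/-!
# P022E: a solvable subgroup of `GL₂(k)`, `k` of characteristic two, whose elements have their
eigenvalues in `k`, is triangular or monomial in a basis defined over `k`
-/

set_option linter.all false

open Matrix

noncomputable section

namespace Vale.Agent.P022E.Two

open Vale.Agent.P022.H783.Sv

variable {k : Type} [Field k]

/-- the normal form of a non scalar matrix with an eigenvalue in `k` -/
theorem normal' (b : Matrix (Fin 2) (Fin 2) k) (hb : ∀ c : k, b ≠ c • 1)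
    (hl : ∃ l : k, l ^ 2 - b.trace * l + b.det = 0) :
    ∃ (P : GL (Fin 2) k) (l m x : k), b * (P : Matrix (Fin 2) (Fin 2) k) =
      (P : Matrix (Fin 2) (Fin 2) k) * !![l, x; 0, m] ∧ (l ≠ m ∧ x = 0 ∨ l = m ∧ x ≠ 0) := by
  have h1 : ∃ (P : GL (Fin 2) k) (l m x : k), b * (P : Matrix (Fin 2) (Fin 2) k) =
      (P : Matrix (Fin 2) (Fin 2) k) * !![l, x; 0, m] := by
    by_cases hr : b 1 0 = 0
    · refine ⟨1, b 0 0, b 1 1, b 0 1, ?_⟩
      ext i j
      fin_cases i <;> fin_cases j <;> simp [hr]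
    · obtain ⟨l, hl⟩ := hl
      rw [Matrix.trace_fin_two, Matrix.det_fin_two] at hl
      have hdet : IsUnit (!![b 0 0 - (b 0 0 + b 1 1 - l), 1; b 1 0, 0] :
          Matrix (Fin 2) (Fin 2) k).det := by
        rw [det_fin_two_of, isUnit_iff_ne_zero]
        intro h
        apply hr
        linear_combination -h
      refine ⟨GeneralLinearGroup.mk'' _ hdet, l, b 0 0 + b 1 1 - l, 1, ?_⟩
      have hP : ((GeneralLinearGroup.mk'' _ hdet : GL (Fin 2) k) : Matrix (Fin 2) (Fin 2) k) =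
          !![b 0 0 - (b 0 0 + b 1 1 - l), 1; b 1 0, 0] := rfl
      rw [hP]
      ext i j
      fin_cases i <;> fin_cases j
      · simp [Matrix.mul_apply, Fin.sum_univ_two]
        linear_combination -hl
      · simp [Matrix.mul_apply, Fin.sum_univ_two]
      · simp [Matrix.mul_apply, Fin.sum_univ_two]
        ring
      · simp [Matrix.mul_apply, Fin.sum_univ_two]
  obtain ⟨P, l, m, x, hP⟩ := h1
  by_cases hlm : l = m
  · refine ⟨P, l, m, x, hP, Or.inr ⟨hlm, ?_⟩⟩
    rintro rfl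
    apply hb l
    subst hlm
    have h2 : (!![l, 0; 0, l] : Matrix (Fin 2) (Fin 2) k) = l • 1 := by
      ext i j
      fin_cases i <;> fin_cases j <;> simp
    rw [h2] at hP
    have h3 := congrArg (fun X => X * ((P⁻¹ : GL (Fin 2) k) : Matrix (Fin 2) (Fin 2) k)) hP
    simp only [Matrix.mul_assoc] at h3
    rw [← Units.val_mul, mul_inv_cancel] at h3
    simpa [smul_mul_assoc] using h3
  · have hml : m - l ≠ 0 := fun h => hlm (sub_eq_zero.1 h).symm
    have hdet : IsUnit (!![1, x / (m - l); 0, 1] : Matrix (Fin 2) (Fin 2) k).det := by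
      rw [det_fin_two_of]
      simp
    refine ⟨P * GeneralLinearGroup.mk'' _ hdet, l, m, 0, ?_, Or.inl ⟨hlm, rfl⟩⟩
    have hQ : ((GeneralLinearGroup.mk'' _ hdet : GL (Fin 2) k) : Matrix (Fin 2) (Fin 2) k) =
        !![1, x / (m - l); 0, 1] := rfl
    rw [Units.val_mul, ← Matrix.mul_assoc, hP, hQ, Matrix.mul_assoc, Matrix.mul_assoc]
    congr 1
    ext i j
    fin_cases i <;> fin_cases j
    · simp
    · simp
      field_simp
      ring
    · simp
    · simp

/-- **triangular or monomial**, for homomorphisms to `GL₂` -/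
theorem clsGL [CharP k 2] {G : Type} [Group G] (ρ : G →* GL (Fin 2) k)
    (hs : Group.IsSolvable ρ.range)
    (hsp : ∀ g, ∃ a : k, a ^ 2 - (ρ g : Matrix (Fin 2) (Fin 2) k).trace * a +
      (ρ g : Matrix (Fin 2) (Fin 2) k).det = 0) :
    ∃ P : GL (Fin 2) k,
      (∀ g, ((P⁻¹ * ρ g * P : GL (Fin 2) k) : Matrix (Fin 2) (Fin 2) k) 1 0 = 0) ∨
      ∀ g, (((P⁻¹ * ρ g * P : GL (Fin 2) k) : Matrix (Fin 2) (Fin 2) k) 0 1 = 0 ∧
          ((P⁻¹ * ρ g * P : GL (Fin 2) k) : Matrix (Fin 2) (Fin 2) k) 1 0 = 0) ∨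
        (((P⁻¹ * ρ g * P : GL (Fin 2) k) : Matrix (Fin 2) (Fin 2) k) 0 0 = 0 ∧
          ((P⁻¹ * ρ g * P : GL (Fin 2) k) : Matrix (Fin 2) (Fin 2) k) 1 1 = 0) := by
  by_cases hn : ∀ g, ∃ c : k, (ρ g : Matrix (Fin 2) (Fin 2) k) = c • 1
  · refine ⟨1, Or.inl fun g => ?_⟩
    obtain ⟨c, hc⟩ := hn g
    rw [inv_one, one_mul, mul_one, hc]
    simp
  · obtain ⟨b, hb, hcomm⟩ := exists_comm ρ hs hn
    obtain ⟨P, l, m, x, hP, hlx⟩ := normal' _ hb (hsp b)
    have hd := fun g => dich hP hlx (hcomm g)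
    refine ⟨P, ?_⟩
    by_cases hlm : l = m
    · refine Or.inl fun g => ?_
      rcases hd g with h | h
      · exact h.1
      · exact absurd hlm h.1
    · refine Or.inr fun g => ?_
      rcases hd g with h | h
      · exact Or.inl ⟨h.2 hlm, h.1⟩
      · exact Or.inr h.2

/-- **triangular or monomial**, for homomorphisms to the monoid of matrices -/
theorem cls [CharP k 2] {G : Type} [Group G] (r : G →* Matrix (Fin 2) (Fin 2) k)
    (hs : Group.IsSolvable r.toHomUnits.range)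
    (hsp : ∀ g, ∃ a : k, a ^ 2 - (r g).trace * a + (r g).det = 0) :
    ∃ P Q : Matrix (Fin 2) (Fin 2) k, P * Q = 1 ∧ ((∀ g, (Q * r g * P) 1 0 = 0) ∨
      ∀ g, ((Q * r g * P) 0 1 = 0 ∧ (Q * r g * P) 1 0 = 0) ∨
        ((Q * r g * P) 0 0 = 0 ∧ (Q * r g * P) 1 1 = 0)) := by
  obtain ⟨P, h⟩ := clsGL (k := k) r.toHomUnits hs hsp
  refine ⟨(P : Matrix (Fin 2) (Fin 2) k), ((P⁻¹ : GL (Fin 2) k) : Matrix (Fin 2) (Fin 2) k),
    by rw [← Units.val_mul, mul_inv_cancel, Units.val_one], ?_⟩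
  simpa only [Units.val_mul, MonoidHom.coe_toHomUnits] using h

end Vale.Agent.P022E.Two
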