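import Vale.Agent.P022D.W.Tame
import Vale.Agent.P022D.Loc2.Dec

/-!
# P022E: the finite quotients of a decomposition group are solvable
-/

set_option linter.all false

open NumberField

noncomputable section

namespace Vale.Agent.P022E.Two

open Vale.Agent.P022 Vale.Agent.P022.H443 Vale.Agent.P022D

namespace Solv

section fin

variable {R : Type} [CommRing R] [IsDedekindDomain R]
  {G : Type} [Group G] [MulSemiringAction G R]

/-- the wild inertia group -/
def wild (P : Ideal R) : Subgroup G where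
  carrier := {g | InI1 P g}
  mul_mem' hg hh := hg.mul hh
  one_mem' := ⟨InI.one, fun x _ => by simp⟩
  inv_mem' {g} hg := ⟨hg.1.inv, fun x hx => by
    have h := hg.2 (g⁻¹ • x) (hg.1.inv.smul_mem hx)
    rwa [smul_inv_smul, ← neg_mem_iff, neg_sub] at h⟩

/-- the decomposition group -/
def dc (P : Ideal R) : Subgroup G where
  carrier := {g | ∀ x : R, g • x ∈ P ↔ x ∈ P}
  mul_mem' {g h} hg hh x := by rw [mul_smul, hg, hh]
  one_mem' x := by rw [one_smul]
  inv_mem' {g} hg x := by rw [← hg, smul_inv_smul]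

theorem pow_step {P : Ideal R} {g : G} (h : InI1 P g) {n : ℕ}
    (hn : ∀ x : R, g • x - x ∈ P ^ n) (i : ℕ) (x : R) :
    (g ^ i) • x - x - (i : R) * (g • x - x) ∈ P ^ (n + 1) := by
  induction i with
  | zero => simp
  | succ i ih =>
    have h1 := (h.pow i).sub_mem n (hn x)
    have e : (g ^ (i + 1)) • x - x - ((i + 1 : ℕ) : R) * (g • x - x) =
        ((g ^ i) • (g • x - x) - (g • x - x)) + ((g ^ i) • x - x - (i : R) * (g • x - x)) := by
      rw [pow_succ, mul_smul, smul_sub]; push_cast; ring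
    rw [e]
    exact add_mem h1 ih

theorem pow_lev {P : Ideal R} {l : ℕ} (hl : (l : R) ∈ P) {g : G} (h : InI1 P g) (n : ℕ) :
    ∀ x : R, (g ^ l ^ n) • x - x ∈ P ^ n := by
  induction n with
  | zero => intro x; simp
  | succ n ih =>
    intro x
    have h1 := pow_step (h.pow (l ^ n)) ih l x
    have h2 : (l : R) * ((g ^ l ^ n) • x - x) ∈ P ^ (n + 1) := by
      rw [pow_succ' P]; exact Ideal.mul_mem_mul hl (ih x)
    have h3 := add_mem h1 h2
    rwa [sub_add_cancel, ← pow_mul, ← pow_succ] at h3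

theorem wild_p [FaithfulSMul G R] [Finite G] {P : Ideal R} [hP : P.IsPrime] {l : ℕ}
    (hl : (l : R) ∈ P) : IsPGroup l (wild P : Subgroup G) := by
  intro g
  obtain ⟨a, b, hab, e⟩ := Finite.exists_ne_map_eq_of_infinite fun n : ℕ => (g : G) ^ l ^ n
  wlog hlt : a < b generalizing a b
  · exact this b a hab.symm e.symm (lt_of_le_of_ne (not_lt.1 hlt) hab.symm)
  obtain ⟨c, rfl⟩ := Nat.exists_eq_add_of_lt hlt
  have h1 : ∀ j : ℕ, (g : G) ^ l ^ (a + j * (c + 1)) = (g : G) ^ l ^ a := by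
    intro j
    induction j with
    | zero => simp
    | succ j ih =>
      have e1 : a + (j + 1) * (c + 1) = a + j * (c + 1) + (c + 1) := by ring
      rw [e1, pow_add l, pow_mul, ih, ← pow_mul, ← pow_add, ← add_assoc]
      exact e.symm
  refine ⟨a, Subtype.ext ?_⟩
  rw [SubmonoidClass.coe_pow, OneMemClass.coe_one]
  have hI : (⨅ n : ℕ, P ^ n) = ⊥ := Ideal.iInf_pow_eq_bot_of_isDomain P hP.ne_top
  apply FaithfulSMul.eq_of_smul_eq_smul (α := R)
  intro x
  have h2 : ((g : G) ^ l ^ a) • x - x ∈ (⨅ n : ℕ, P ^ n) := by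
    rw [Ideal.mem_iInf]
    intro n
    rw [← h1 n]
    exact Ideal.pow_le_pow_right (by nlinarith) (pow_lev hl g.2 _ x)
  rw [hI, Ideal.mem_bot, sub_eq_zero] at h2
  rw [h2, one_smul]

theorem inert_solv [FaithfulSMul G R] [Finite G] {P : Ideal R} [hP : P.IsPrime] (hP0 : P ≠ ⊥)
    {l : ℕ} (hp : l.Prime) (hl : (l : R) ∈ P) : Group.IsSolvable (inert P : Subgroup G) := by
  have := Fact.mk hp
  have h1 := (wild_p (G := G) hl).isNilpotent
  obtain ⟨χ, hχ⟩ := W.exists_chi (G := G) hP0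
  refine Group.isSolvable_of_ker_le_range
    (Subgroup.inclusion (show (wild P : Subgroup G) ≤ inert P from fun g hg => hg.1))
    χ.toHomUnits fun g hg => ?_
  exact ⟨⟨g, hχ g (congrArg Units.val hg)⟩, rfl⟩

theorem frob_pow {P : Ideal R} [hP : P.IsPrime] (hP0 : P ≠ ⊥) [Finite (R ⧸ P)]
    {l : ℕ} (hp : l.Prime) (hl : (l : R) ∈ P) {g : G} (hg : g ∈ (dc P : Subgroup G)) :
    ∃ i : ℕ, ∀ x : R, g • x - x ^ l ^ i ∈ P := by
  have := Fact.mk hp
  have hm : P.IsMaximal := hP.isMaximal hP0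
  let _ : Field (R ⧸ P) := Ideal.Quotient.field P
  have : CharP (R ⧸ P) l := (CharP.charP_iff_prime_eq_zero hp).2 (by
    rw [← map_natCast (Ideal.Quotient.mk P), Ideal.Quotient.eq_zero_iff_mem]; exact hl)
  let gb : (R ⧸ P) →+* (R ⧸ P) := Ideal.Quotient.lift P
    ((Ideal.Quotient.mk P).comp (MulSemiringAction.toRingHom G R g))
    (fun x hx => Ideal.Quotient.eq_zero_iff_mem.2 ((hg x).2 hx))
  let _ : Algebra (ZMod l) (R ⧸ P) := ZMod.algebra _ l
  let gA : (R ⧸ P) →ₐ[ZMod l] (R ⧸ P) :=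
    { toRingHom := gb
      commutes' := fun r => RingHom.congr_fun
        (Subsingleton.elim (gb.comp (algebraMap (ZMod l) _)) (algebraMap (ZMod l) _)) r }
  obtain ⟨k, hk⟩ := (FiniteField.bijective_frobeniusAlgHom_pow (ZMod l) (R ⧸ P)).2 gA
  have h2 : ∀ (i : ℕ) (y : R ⧸ P),
      (FiniteField.frobeniusAlgHom (ZMod l) (R ⧸ P) ^ i) y = y ^ l ^ i := by
    intro i
    induction i with
    | zero => intro y; simp
    | succ i ih =>
      intro y
      rw [pow_succ, AlgHom.mul_apply, ih, FiniteField.coe_frobeniusAlgHom, ZMod.card, ← pow_mul,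
        pow_succ']
  refine ⟨k, fun x => ?_⟩
  have h1 := DFunLike.congr_fun hk (Ideal.Quotient.mk P x)
  rw [h2] at h1
  refine Ideal.Quotient.eq.1 ?_
  rw [map_pow]
  exact h1.symm

theorem dc_solv [FaithfulSMul G R] [Finite G] {P : Ideal R} [hP : P.IsPrime] (hP0 : P ≠ ⊥)
    [Finite (R ⧸ P)] {l : ℕ} (hp : l.Prime) (hl : (l : R) ∈ P) :
    Group.IsSolvable (dc P : Subgroup G) := by
  have h1 := inert_solv (G := G) hP0 hp hl
  have le : (inert P : Subgroup G) ≤ dc P := fun g hg x =>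
    ⟨fun h => by simpa using P.sub_mem h (hg x), fun h => by simpa using P.add_mem (hg x) h⟩
  have hn : (Subgroup.inclusion le).range.Normal := by
    refine ⟨?_⟩
    rintro _ ⟨s, rfl⟩ g
    refine ⟨⟨(g : G) * s * (g : G)⁻¹, fun x => ?_⟩, rfl⟩
    have h := (g.2 _).2 (s.2 ((g : G)⁻¹ • x))
    rw [smul_sub, smul_inv_smul] at h
    rwa [mul_smul, mul_smul]
  have h2 : Group.IsSolvable ((dc P : Subgroup G) ⧸ (Subgroup.inclusion le).range) := by
    refine Group.isSolvable_of_comm fun a b => ?_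
    obtain ⟨g, rfl⟩ := QuotientGroup.mk_surjective a
    obtain ⟨h, rfl⟩ := QuotientGroup.mk_surjective b
    rw [← QuotientGroup.mk_mul, ← QuotientGroup.mk_mul, QuotientGroup.eq]
    refine ⟨⟨(((g * h)⁻¹ * (h * g) : (dc P : Subgroup G)) : G), fun x => ?_⟩, rfl⟩
    obtain ⟨i, hi⟩ := frob_pow hP0 hp hl g.2
    obtain ⟨j, hj⟩ := frob_pow hP0 hp hl h.2
    have key : ∀ (g h : G) (i j : ℕ), (∀ x : R, g • x - x ^ l ^ i ∈ P) →
        (∀ x : R, h • x - x ^ l ^ j ∈ P) → (g * h) • x - x ^ l ^ (j + i) ∈ P := by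
      intro g h i j hi hj
      have a1 := hi (h • x)
      have a2 : (h • x) ^ l ^ i - (x ^ l ^ j) ^ l ^ i ∈ P :=
        P.mem_of_dvd (sub_dvd_pow_sub_pow _ _ _) (hj x)
      have a3 := add_mem a1 a2
      rwa [sub_add_sub_cancel, ← mul_smul, ← pow_mul, ← pow_add] at a3
    have b1 := key g h i j hi hj
    have b2 := key h g j i hj hi
    rw [add_comm i j] at b2
    have b3 := sub_mem b2 b1
    rw [sub_sub_sub_cancel_right] at b3
    have b4 := ((g * h)⁻¹.2 _).2 b3
    rw [smul_sub, ← mul_smul, ← mul_smul] at b4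
    simpa [mul_assoc] using b4
  refine Group.isSolvable_of_ker_le_range (Subgroup.inclusion le)
    (QuotientGroup.mk' (Subgroup.inclusion le).range) ?_
  rw [QuotientGroup.ker_mk']

end fin

theorem of_ker {A B C : Type} [Group A] [Group B] [Group C] (φ : A →* B) (ψ : A →* C)
    (hB : Group.IsSolvable B) (h : ∀ a, φ a = 1 → ψ a = 1) : Group.IsSolvable ψ.range := by
  obtain ⟨n, hn⟩ := hB
  refine ⟨n, ?_⟩
  rw [← map_derivedSeries_eq ψ.rangeRestrict_surjective, Subgroup.map_eq_bot_iff]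
  intro a ha
  have h1 := map_derivedSeries_le_derivedSeries φ n ⟨a, ha, rfl⟩
  rw [hn] at h1
  exact Subtype.ext (h a h1)

end Solv

/-- **a homomorphism with open kernel has a solvable image on a decomposition group** -/
theorem solv_hom {l : ℕ} (hl : l.Prime) {P : Ideal (𝓞 Qb)} (hP : P.IsPrime)
    (hPl : (l : 𝓞 Qb) ∈ P) {Γ : Type} [Group Γ] (f : GQ →* Γ) (hf : IsOpen {g : GQ | f g = 1})
    {A : Type} [Group A] (j : A →* GQ) (hj : ∀ a, j a ∈ W.dec P) :
    Group.IsSolvable (f.comp j).range := by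
  have hf' : IsOpen (f.ker : Set GQ) := hf
  have := galQb
  have := cut_fin hf'
  have := cut_gal hf'
  have : NumberField (cut f) :=
    { to_charZero := inferInstance, to_finiteDimensional := inferInstance }
  let i : cut f →+* Qb := algebraMap (cut f) Qb
  let m : 𝓞 (cut f) →+* 𝓞 Qb := RingOfIntegers.mapRingHom i
  let q : GQ →* (cut f ≃ₐ[ℚ] cut f) := AlgEquiv.restrictNormalHom (cut f)
  have hq : ∀ (g : GQ) (x : cut f), ((q g x : cut f) : Qb) = g x := fun g x =>
    AlgEquiv.restrictNormal_commutes g (cut f) x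
  have hm : ∀ (g : GQ) (x : 𝓞 (cut f)), m (q g • x) = g • m x := by
    intro g x
    apply RingOfIntegers.ext
    exact hq g _
  have hker : ∀ g, q g = 1 → f g = 1 := by
    intro g h
    have e : g ∈ (cut f).fixingSubgroup := by
      rw [IntermediateField.mem_fixingSubgroup_iff]
      intro x hx
      have h1 := hq g ⟨x, hx⟩
      rw [h] at h1
      exact h1.symm
    rwa [cut_fix hf'] at e
  have hQp : (P.comap m).IsPrime := Ideal.comap_isPrime m P
  have := faithful_ringOfIntegers (cut f)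
  have h1 : (l : 𝓞 (cut f)) ∈ P.comap m := by
    rw [Ideal.mem_comap, map_natCast]; exact hPl
  have hQ0 : P.comap m ≠ ⊥ := by
    intro h
    rw [h, Ideal.mem_bot] at h1
    exact hl.ne_zero (by exact_mod_cast h1)
  have := (P.comap m).finiteQuotientOfFreeOfNeBot hQ0
  refine Solv.of_ker ((q.comp j).codRestrict (Solv.dc (P.comap m)) fun a x => ?_) _
    (Solv.dc_solv hQ0 hl h1) fun a ha => hker _ (congrArg Subtype.val ha)
  rw [Ideal.mem_comap, Ideal.mem_comap, MonoidHom.comp_apply, hm]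
  exact hj a _

/-- the image of the decomposition group -/
theorem solv_dec {l : ℕ} (hl : l.Prime) {P : Ideal (𝓞 Qb)} (hP : P.IsPrime)
    (hPl : (l : 𝓞 Qb) ∈ P) {Γ : Type} [Group Γ] (f : GQ →* Γ) (hf : IsOpen {g : GQ | f g = 1}) :
    Group.IsSolvable (f.comp (W.dec P).subtype).range :=
  solv_hom hl hP hPl f hf _ fun a => a.2

/-- the image of the local Galois group -/
theorem solv_jj (p : ℕ) [hp : Fact p.Prime] {Γ : Type} [Group Γ] (f : GQ →* Γ)
    (hf : IsOpen {g : GQ | f g = 1}) : Group.IsSolvable (f.comp (Loc2.jj p)).range :=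
  solv_hom hp.out (Loc2.PP_prime p) (Loc2.p_mem_PP p) f hf _
    fun a => (Loc2.range_jj p _).2 ⟨a, rfl⟩

end Vale.Agent.P022E.Two
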